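import Vale.Agent.P120.FinalQ

/-!
Flatness of a measure at a point and a scale; Carleson packing.
-/

open MeasureTheory Metric Set

namespace Vale.Agent.P120

/-- In the ball `B(x, K t)` the measure `μ` is `ε`-close to `g` times the `n`-dimensional Lebesgue
measure of an `n`-plane `b + ι(R^n)`, with a density `1/D ≤ g ≤ D`: the integrals of every
`1/t`-Lipschitz function vanishing outside the ball differ by at most `ε t^n`. -/
def FlatAt {d : ℕ} (n : ℕ) (μ : Measure (Eu d)) (D K ε : ℝ) (x : Eu d) (t : ℝ) : Prop :=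
  ∃ (b : Eu d) (ι : Eu n →ₗᵢ[ℝ] Eu d) (g : ℝ), D⁻¹ ≤ g ∧ g ≤ D ∧
    ∀ φ : Eu d → ℝ, (∀ y z, |φ y - φ z| ≤ dist y z / t) → (∀ y, K * t ≤ dist y x → φ y = 0) →
      |∫ y, φ y ∂μ - g * ∫ v, φ (b + ι v)| ≤ ε * t ^ n

/-- In the ball `B(x, K t)` the support of `μ` and some `n`-plane `b + ι(R^n)` are within
distance `ε t` of each other. -/
def BilaterallyFlatAt {d : ℕ} (n : ℕ) (μ : Measure (Eu d)) (K ε : ℝ) (x : Eu d) (t : ℝ) : Prop :=
  ∃ (b : Eu d) (ι : Eu n →ₗᵢ[ℝ] Eu d),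
    (∀ y ∈ μ.support, dist y x ≤ K * t → ∃ v, dist y (b + ι v) ≤ ε * t) ∧
    (∀ v, dist (b + ι v) x ≤ K * t → ∃ y ∈ μ.support, dist y (b + ι v) ≤ ε * t)

/-- The property `P` of points and scales holds outside a Carleson set with constant `A`: in each
ball `B(x₀, R)`, `x₀ ∈ supp μ`, `0 < R ≤ diam supp μ`, the measures of the sets of points of
`supp μ` where `P` fails at some scale `t ∈ [R / 2^(j+1), R / 2^j]`, `j = 0, 1, 2, …`, add up to
at most `A R^n`. -/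
def OffCarleson {d : ℕ} (n : ℕ) (A : ℝ) (μ : Measure (Eu d)) (P : Eu d → ℝ → Prop) : Prop :=
  ∀ x₀ ∈ μ.support, ∀ R : ℝ, 0 < R → ENNReal.ofReal R ≤ ediam μ.support →
    ∑' j : ℕ, μ {x | x ∈ μ.support ∧ x ∈ ball x₀ R ∧
      ∃ t, R / 2 ^ (j + 1) ≤ t ∧ t ≤ R / 2 ^ j ∧ ¬ P x t} ≤
      ENNReal.ofReal (A * R ^ n)

end Vale.Agent.P120
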