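import Vale.Agent.P120.Bdl.B4
import Vale.Agent.P120.H791.Defs

/-!
P120 (helper791): quantitative multiscale form of the David-Semmes theorem.
-/

set_option linter.all false

open MeasureTheory Metric Set Filter Topology
open scoped ENNReal NNReal

namespace Vale.Agent.P120.MS

variable {n d : ℕ}

/-- Theorem A in terms of sums of measures -/
theorem packing (n d A : ℕ) (hn : 1 ≤ n) (hnd : n ≤ d) (hA : 16 ≤ A) (c C C₁ : ℝ)
    (hc : 0 < c) (hC : 0 < C) (K ε : ℝ) (hK : 0 < K) (hε : 0 < ε) :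
    ∃ CA : ℝ, 0 < CA ∧ ∀ (μ : Measure (Eu d)) (D : ℝ≥0∞), AR n c C D μ → RB n C₁ μ →
    ∀ l₀ : ℝ, ENNReal.ofReal l₀ ≤ D → ∀ Q : Cubes μ.support A l₀, ∀ z ∈ Q.N 0, ∀ J : ℕ,
      ∑ j ∈ Finset.range J, μ {x | x ∈ Q.cube 0 z ∧
        ¬ NearFlat n μ (c / kap n) (C / kap n) (Q.p j x) (Q.l j) K ε} ≤
      ENNReal.ofReal (CA * l₀ ^ n) := by
  classical
  obtain ⟨CA, hCA, H⟩ := theoremA n d A hn hnd hA c C C₁ hc hC K ε hK hε
  refine ⟨CA, hCA, ?_⟩
  intro μ D hAR hRB l₀ hlD Q z hz J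
  have hl := Q.l_pos
  have hS := Q.sys hz
  have hzs : z ∈ μ.support := Q.N_sub 0 hz
  have hint := H μ D hAR hRB z hzs l₀ hl hlD Q.p hS J
  set S₀ := rootC μ z Q.p with hS₀
  have hlf := hAR.isLocallyFiniteMeasure
  set P : ℕ → Eu d → Prop :=
    fun j z => ¬ NearFlat n μ (c / kap n) (C / kap n) z (sc A l₀ j) K ε with hP
  have hfin : ∀ j, (Q.p j '' S₀).Finite := fun j => hS.finite hA hl j
  have hμS₀ : μ S₀ ≠ ⊤ := by
    refine ((measure_mono ?_).trans_lt (hAR.measure_ball_lt_top z (2 * l₀))).ne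
    intro x hx
    rw [mem_closedBall]
    exact hS.dist_root hx
  have hfm : IsFiniteMeasure (μ.restrict S₀) := ⟨by
    rw [Measure.restrict_apply_univ]; exact lt_top_iff_ne_top.2 hμS₀⟩
  have hpred : ∀ j, MeasurableSet {x | x ∈ S₀ ∧ P j (Q.p j x)} := fun j =>
    measurable_pred (J := j) (fun i _ => hfin i) (fun i _ z => hS.hmeas i z) P le_rfl
  have hnt : ∀ j, μ {x | x ∈ S₀ ∧ P j (Q.p j x)} ≠ ⊤ := fun j =>
    ((measure_mono (fun x hx => hx.1)).trans_lt (lt_top_iff_ne_top.2 hμS₀)).ne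
  have h1 : ∀ j, ∫ x in S₀, (if P j (Q.p j x) then (1 : ℝ) else 0) ∂μ =
      μ.real {x | x ∈ S₀ ∧ P j (Q.p j x)} := by
    intro j
    have e1 : ∫ x in S₀, (if P j (Q.p j x) then (1 : ℝ) else 0) ∂μ =
        ∫ x in S₀, Set.indicator {x | x ∈ S₀ ∧ P j (Q.p j x)} (fun _ => (1 : ℝ)) x ∂μ := by
      apply setIntegral_congr_fun hS.measurableSet_root
      intro x hx
      by_cases hP : P j (Q.p j x)
      · have hm : x ∈ {x | x ∈ S₀ ∧ P j (Q.p j x)} := ⟨hx, hP⟩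
        simp only [Set.indicator_of_mem hm, if_pos hP]
      · have hm : x ∉ {x | x ∈ S₀ ∧ P j (Q.p j x)} := fun h => hP h.2
        simp only [Set.indicator_of_notMem hm, if_neg hP]
    rw [e1, setIntegral_indicator (hpred j), setIntegral_const, smul_eq_mul, mul_one]
    congr 1
    ext x
    constructor
    · rintro ⟨-, h⟩; exact h
    · intro h; exact ⟨h.1, h⟩
  have h2 : ∫ x in S₀, cnt Q.p P 0 J x ∂μ =
      ∑ j ∈ Finset.Icc 0 J, μ.real {x | x ∈ S₀ ∧ P j (Q.p j x)} := by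
    unfold cnt
    rw [integral_finsetSum]
    · apply Finset.sum_congr rfl
      intro j _
      rw [← h1 j]
      congr 1
      ext x
      congr 1
    · intro j _
      have hi : IntegrableOn (Set.indicator {x | x ∈ S₀ ∧ P j (Q.p j x)}
          (fun _ => (1 : ℝ))) S₀ μ :=
        (integrable_const (1 : ℝ)).indicator (hpred j)
      refine IntegrableOn.congr_fun hi ?_ hS.measurableSet_root
      intro x hx
      by_cases hP : P j (Q.p j x)
      · have hm : x ∈ {x | x ∈ S₀ ∧ P j (Q.p j x)} := ⟨hx, hP⟩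
        simp only [Set.indicator_of_mem hm, if_pos hP]
      · have hm : x ∉ {x | x ∈ S₀ ∧ P j (Q.p j x)} := fun h => hP h.2
        simp only [Set.indicator_of_notMem hm, if_neg hP]
  rw [h2] at hint
  calc _ ≤ ∑ j ∈ Finset.range J, μ {x | x ∈ S₀ ∧ P j (Q.p j x)} := by
        apply Finset.sum_le_sum
        intro j _
        apply measure_mono
        rintro x ⟨hx, hbf⟩
        refine ⟨hx, ?_⟩
        have hlj : sc A l₀ j = Q.l j := by rw [sc, Cubes.l, div_eq_mul_inv]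
        rw [hP]
        simp only
        rw [hlj]
        exact hbf
    _ ≤ ∑ j ∈ Finset.Icc 0 J, μ {x | x ∈ S₀ ∧ P j (Q.p j x)} := by
        apply Finset.sum_le_sum_of_subset
        intro j hj
        rw [Finset.mem_range] at hj
        rw [Finset.mem_Icc]
        omega
    _ = ENNReal.ofReal (∑ j ∈ Finset.Icc 0 J, μ.real {x | x ∈ S₀ ∧ P j (Q.p j x)}) := by
        rw [ENNReal.ofReal_sum_of_nonneg (fun j _ => measureReal_nonneg)]
        apply Finset.sum_congr rfl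
        intro j _
        rw [ofReal_measureReal (hnt j)]
    _ ≤ ENNReal.ofReal (CA * l₀ ^ n) := ENNReal.ofReal_le_ofReal hint

/-- the root cubes that meet a ball of radius `R`, for cubes of size `R` -/
theorem roots {μ : Measure (Eu d)} {c C : ℝ} {D : ℝ≥0∞} (hAR : AR n c C D μ) {R : ℝ}
    (hRD : ENNReal.ofReal R ≤ D) (Q : Cubes μ.support 16 R) {x₀ : Eu d} (hx₀ : x₀ ∈ μ.support) :
    ∃ T : Finset (Eu d), (T.card : ℝ) ≤ C / c * 8 ^ n ∧ (∀ z ∈ T, z ∈ Q.N 0) ∧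
      ∀ x ∈ μ.support, x ∈ ball x₀ R → Q.p 0 x ∈ T := by
  have hR := Q.l_pos
  have hc := hAR.c_pos
  have hC := hAR.C_pos
  set S : Set (Eu d) := Q.N 0 ∩ ball x₀ (3 * R) with hS
  have key : ∀ T : Finset (Eu d), (T : Set (Eu d)) ⊆ S → (T.card : ℝ) ≤ C / c * 8 ^ n := by
    intro T hT
    have hdis : (T : Set (Eu d)).PairwiseDisjoint fun z => ball z (R / 2) := by
      intro z hz w hw hzw
      refine ball_disjoint_ball ?_
      have := Q.N_sep 0 z (hT hz).1 w (hT hw).1 hzw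
      rw [pow_zero, div_one] at this
      linarith
    have h1 : ∑ z ∈ T, μ (ball z (R / 2)) ≤ μ (closedBall x₀ (4 * R)) := by
      rw [← measure_biUnion_finset hdis (fun z _ => measurableSet_ball)]
      apply measure_mono
      intro y hy
      simp only [mem_iUnion] at hy
      obtain ⟨z, hz, hy⟩ := hy
      have h2 := (hT hz).2
      rw [mem_ball] at hy h2
      rw [mem_closedBall]
      linarith [dist_triangle y z x₀]
    have h2 : ∑ z ∈ T, ENNReal.ofReal (c * (R / 2) ^ n) ≤ ∑ z ∈ T, μ (ball z (R / 2)) := by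
      apply Finset.sum_le_sum
      intro z hz
      apply hAR.lower z (Q.N_sub 0 (hT hz).1) (R / 2) (by positivity)
      exact (ENNReal.ofReal_le_ofReal (by linarith)).trans hRD
    have h3 := h2.trans (h1.trans (hAR.upper x₀ (4 * R) (by positivity)))
    rw [Finset.sum_const, nsmul_eq_mul, ← ENNReal.ofReal_natCast, ← ENNReal.ofReal_mul
      (Nat.cast_nonneg _), ENNReal.ofReal_le_ofReal_iff (by positivity)] at h3
    have h4 : (4 * R) ^ n = 8 ^ n * (R / 2) ^ n := by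
      rw [← mul_pow]; congr 1; ring
    rw [h4] at h3
    have h5 : 0 < (R / 2) ^ n := by positivity
    have h6 : (T.card : ℝ) * c ≤ C * 8 ^ n := by
      have : (T.card : ℝ) * c * (R / 2) ^ n ≤ C * 8 ^ n * (R / 2) ^ n := by
        calc _ = (T.card : ℝ) * (c * (R / 2) ^ n) := by ring
          _ ≤ C * (8 ^ n * (R / 2) ^ n) := h3
          _ = _ := by ring
      exact le_of_mul_le_mul_right this h5
    rw [div_mul_eq_mul_div, le_div_iff₀ hc]
    exact h6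
  have hfin : S.Finite := by
    by_contra hinf
    obtain ⟨N, hN⟩ := exists_nat_gt (C / c * 8 ^ n)
    obtain ⟨T, hT, hTc⟩ := Set.Infinite.exists_subset_card_eq hinf N
    have := key T hT
    rw [hTc] at this
    linarith
  refine ⟨hfin.toFinset, key _ (by simp), ?_, ?_⟩
  · intro z hz
    exact (hfin.mem_toFinset.1 hz).1
  · intro x hx hxb
    rw [hfin.mem_toFinset]
    refine ⟨Q.p_mem 0 x hx, ?_⟩
    have := Q.p_dist 0 x hx
    rw [pow_zero, div_one, dist_comm] at this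
    rw [mem_ball] at hxb ⊢
    linarith [dist_triangle (Q.p 0 x) x x₀]

/-- from cubes to dyadic scales -/
theorem dyadic {μ : Measure (Eu d)} {c C : ℝ} (hAR : AR n c C (ediam μ.support) μ)
    {G F : Eu d → ℝ → Prop} {CA : ℝ} (hCA : 0 < CA)
    (hG : ∀ l₀ : ℝ, ENNReal.ofReal l₀ ≤ ediam μ.support → ∀ Q : Cubes μ.support 16 l₀,
      ∀ z ∈ Q.N 0, ∀ J : ℕ, ∑ j ∈ Finset.range J,
        μ {x | x ∈ Q.cube 0 z ∧ ¬ G (Q.p j x) (Q.l j)} ≤ ENNReal.ofReal (CA * l₀ ^ n))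
    (hF : ∀ z ∈ μ.support, ∀ x ∈ μ.support, ∀ r t : ℝ, 0 < r →
      ENNReal.ofReal r ≤ ediam μ.support → dist x z ≤ 2 * r → r / 16 ≤ t → t ≤ r → G z r →
      F x t) :
    OffCarleson n (C / c * 8 ^ n * (4 * CA)) μ F := by
  intro x₀ hx₀ R hR hRD
  obtain ⟨Q, -⟩ := exists_cubes (E := μ.support) Measure.isClosed_support.measurableSet hx₀
    (le_refl 16) hR
  obtain ⟨T, hT, hTN, hTx⟩ := roots hAR hRD Q hx₀
  have hc := hAR.c_pos
  have hC := hAR.C_pos
  -- partial sums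
  generalize hf : (fun i : ℕ => μ {x | x ∈ μ.support ∧ x ∈ ball x₀ R ∧
    ∃ t, R / 2 ^ (i + 1) ≤ t ∧ t ≤ R / 2 ^ i ∧ ¬ F x t}) = f
  have hf' : ∀ i, μ {x | x ∈ μ.support ∧ x ∈ ball x₀ R ∧
    ∃ t, R / 2 ^ (i + 1) ≤ t ∧ t ≤ R / 2 ^ i ∧ ¬ F x t} = f i := fun i => congrFun hf i
  have h1 : ∀ j s : ℕ, s < 4 → f (4 * j + s) ≤
      ∑ z ∈ T, μ {x | x ∈ Q.cube 0 z ∧ ¬ G (Q.p j x) (Q.l j)} := by
    intro j s hs
    rw [← hf' (4 * j + s)]
    refine le_trans (measure_mono ?_) (measure_biUnion_finset_le T _)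
    rintro x ⟨hx, hxb, t, ht1, ht2, hxF⟩
    simp only [mem_iUnion]
    refine ⟨Q.p 0 x, hTx x hx hxb, ⟨hx, rfl⟩, fun hg => hxF ?_⟩
    have hl : Q.l j = R / 2 ^ (4 * j) := by
      unfold Cubes.l
      rw [pow_mul]
      norm_num
    have hlp := Q.l_pos' j
    refine hF (Q.p j x) (Q.N_sub j (Q.p_mem j x hx)) x hx (Q.l j) t hlp ?_ ?_ ?_ ?_ hg
    · refine (ENNReal.ofReal_le_ofReal ?_).trans hRD
      rw [hl]
      exact div_le_self hR.le (one_le_pow₀ (by norm_num))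
    · exact Q.p_dist j x hx
    · refine le_trans ?_ ht1
      rw [hl, add_assoc, pow_add, div_div]
      apply div_le_div_of_nonneg_left hR.le (by positivity)
      have : (2 : ℝ) ^ (s + 1) ≤ 16 := by
        calc (2 : ℝ) ^ (s + 1) ≤ 2 ^ 4 := pow_le_pow_right₀ (by norm_num) hs
          _ = 16 := by norm_num
      exact mul_le_mul_of_nonneg_left this (by positivity)
    · refine ht2.trans ?_
      rw [hl, pow_add]
      apply div_le_div_of_nonneg_left hR.le (by positivity)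
      exact le_mul_of_one_le_right (by positivity) (one_le_pow₀ (by norm_num))
  have key : ∀ J : ℕ, ∑ i ∈ Finset.range (4 * J), f i ≤
        ENNReal.ofReal (C / c * 8 ^ n * (4 * CA) * R ^ n) := by
    intro J
    have h2 : ∑ i ∈ Finset.range (4 * J), f i =
        ∑ j ∈ Finset.range J, ∑ s ∈ Finset.range 4, f (4 * j + s) := by
      clear h1 hf hf'
      induction J with
      | zero => simp
      | succ J ih =>
        rw [Finset.sum_range_succ _ J, ← ih, Nat.mul_succ, Finset.sum_range_add]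
    rw [h2]
    calc _ ≤ ∑ j ∈ Finset.range J, ∑ s ∈ Finset.range 4,
          ∑ z ∈ T, μ {x | x ∈ Q.cube 0 z ∧ ¬ G (Q.p j x) (Q.l j)} := by
          refine Finset.sum_le_sum fun j _ => Finset.sum_le_sum fun s hs => ?_
          exact h1 j s (Finset.mem_range.1 hs)
      _ = ∑ z ∈ T, 4 * ∑ j ∈ Finset.range J,
          μ {x | x ∈ Q.cube 0 z ∧ ¬ G (Q.p j x) (Q.l j)} := by
          simp only [Finset.sum_const, Finset.card_range, nsmul_eq_mul]
          rw [← Finset.mul_sum, Finset.sum_comm, ← Finset.mul_sum]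
          push_cast
          rfl
      _ ≤ ∑ z ∈ T, 4 * ENNReal.ofReal (CA * R ^ n) := by
          refine Finset.sum_le_sum fun z hz => ?_
          gcongr
          exact hG R hRD Q z (hTN z hz) J
      _ = ENNReal.ofReal ((T.card : ℝ) * (4 * (CA * R ^ n))) := by
          rw [Finset.sum_const, nsmul_eq_mul, ENNReal.ofReal_mul (Nat.cast_nonneg _),
            ENNReal.ofReal_natCast, ENNReal.ofReal_mul (by norm_num : (0:ℝ) ≤ 4)]
          congr 2
          norm_num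
      _ ≤ _ := by
          apply ENNReal.ofReal_le_ofReal
          calc (T.card : ℝ) * (4 * (CA * R ^ n)) ≤ C / c * 8 ^ n * (4 * (CA * R ^ n)) :=
                mul_le_mul_of_nonneg_right hT (by positivity)
            _ = _ := by ring
  refine ENNReal.tsum_le_of_sum_range_le fun J => ?_
  refine le_trans (Finset.sum_le_sum_of_subset ?_) (key J)
  intro i hi
  rw [Finset.mem_range] at hi ⊢
  omega

/-- near-flatness at a cube centre gives flatness at the points of the cube -/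
theorem flatAt_of_nearFlat {μ : Measure (Eu d)} {g₀ g₁ D K ε : ℝ} {x z : Eu d} {r t : ℝ}
    (hK : 0 ≤ K) (hε : 0 ≤ ε) (hD₀ : D⁻¹ ≤ g₀) (hD₁ : g₁ ≤ D) (hr : 0 < r)
    (hxz : dist x z ≤ 2 * r) (ht1 : r / 16 ≤ t) (ht2 : t ≤ r)
    (h : NearFlat n μ g₀ g₁ z r (K + 2) (ε / 16 ^ (n + 1))) : FlatAt n μ D K ε x t := by
  obtain ⟨b, ι, g, hg₀, hg₁, hNF⟩ := h
  have ht : 0 < t := by linarith
  refine ⟨b, ι, g, hD₀.trans hg₀, hg₁.trans hD₁, ?_⟩
  intro φ hφ hφ0
  have hq : 0 < t / r := by positivity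
  have h1 := hNF (fun y => t / r * φ y) (by
    intro y z'
    rw [← mul_sub, abs_mul, abs_of_pos hq]
    calc t / r * |φ y - φ z'| ≤ t / r * (dist y z' / t) :=
          mul_le_mul_of_nonneg_left (hφ y z') hq.le
      _ = dist y z' / r := by field_simp) (by
    intro y hy
    have : φ y = 0 := by
      apply hφ0
      have h2 := dist_triangle y x z
      have h3 : K * t ≤ K * r := mul_le_mul_of_nonneg_left ht2 hK
      nlinarith
    simp [this])
  have e1 : ∫ y, t / r * φ y ∂μ = t / r * ∫ y, φ y ∂μ := integral_const_mul _ _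
  have e2 : ∫ v, t / r * φ (b + ι v) = t / r * ∫ v, φ (b + ι v) := integral_const_mul _ _
  simp only [e1, e2] at h1
  have e3 : t / r * ∫ y, φ y ∂μ - g * (t / r * ∫ v, φ (b + ι v)) =
      t / r * (∫ y, φ y ∂μ - g * ∫ v, φ (b + ι v)) := by ring
  rw [e3, abs_mul, abs_of_pos hq] at h1
  have hrt : r ≤ 16 * t := by linarith
  have h4 : |∫ y, φ y ∂μ - g * ∫ v, φ (b + ι v)| ≤ r / t * (ε / 16 ^ (n + 1) * r ^ n) := by
    calc |∫ y, φ y ∂μ - g * ∫ v, φ (b + ι v)| =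
          r / t * (t / r * |∫ y, φ y ∂μ - g * ∫ v, φ (b + ι v)|) := by field_simp
      _ ≤ _ := mul_le_mul_of_nonneg_left h1 (by positivity)
  refine h4.trans ?_
  have h5 : r / t ≤ 16 := by rw [div_le_iff₀ ht]; exact hrt
  calc r / t * (ε / 16 ^ (n + 1) * r ^ n) ≤ 16 * (ε / 16 ^ (n + 1) * (16 * t) ^ n) := by
        gcongr
    _ = ε * t ^ n := by rw [mul_pow, pow_succ]; field_simp

/-- the same for bilateral flatness -/
theorem bilaterallyFlatAt_of {μ : Measure (Eu d)} {K ε : ℝ} {x z : Eu d} {r t : ℝ}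
    (hK : 0 ≤ K) (hε : 0 ≤ ε) (hr : 0 < r)
    (hxz : dist x z ≤ 2 * r) (ht1 : r / 16 ≤ t) (ht2 : t ≤ r)
    (h : ∃ ι : Eu n →ₗᵢ[ℝ] Eu d,
        (∀ y ∈ μ.support, dist y z ≤ (K + 2) * r → ∃ v, dist y (z + ι v) ≤ ε / 16 * r) ∧
        (∀ v, ‖v‖ ≤ (K + 2) * r → ∃ y ∈ μ.support, dist y (z + ι v) ≤ ε / 16 * r)) :
    BilaterallyFlatAt n μ K ε x t := by
  obtain ⟨ι, h1, h2⟩ := h
  have ht : 0 < t := by linarith
  have h3 : K * t ≤ K * r := mul_le_mul_of_nonneg_left ht2 hK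
  have h4 : ε / 16 * r ≤ ε * t := by
    calc ε / 16 * r = ε * (r / 16) := by ring
      _ ≤ ε * t := mul_le_mul_of_nonneg_left ht1 hε
  refine ⟨z, ι, ?_, ?_⟩
  · intro y hy hyx
    obtain ⟨v, hv⟩ := h1 y hy (by linarith [dist_triangle y x z])
    exact ⟨v, hv.trans h4⟩
  · intro v hv
    obtain ⟨y, hy, hyv⟩ := h2 v (by
      have e : ‖v‖ = dist (z + ι v) z := by
        rw [dist_eq_norm, add_sub_cancel_left, ι.norm_map]
      rw [e]
      linarith [dist_triangle (z + ι v) x z])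
    exact ⟨y, hy, hyv.trans h4⟩

theorem OffCarleson.mono {μ : Measure (Eu d)} {A A' : ℝ} (hA : A ≤ A') {P : Eu d → ℝ → Prop}
    (h : OffCarleson n A μ P) : OffCarleson n A' μ P := by
  intro x₀ hx₀ R hR hRD
  refine (h x₀ hx₀ R hR hRD).trans (ENNReal.ofReal_le_ofReal ?_)
  exact mul_le_mul_of_nonneg_right hA (by positivity)

/-- **the multiscale theorem** -/
theorem multiscale (n d : ℕ) (hn : 1 ≤ n) (hnd : n ≤ d) (C₀ Cb : ℝ) :
    ∃ (θ : ℝ) (M : ℝ≥0) (D : ℝ), 0 < θ ∧ 1 ≤ D ∧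
      (∀ μ : Measure (Eu d), ADRegularWith n C₀ μ → RieszBoundedWith n Cb μ →
        UniformlyRectifiableWith n θ M μ) ∧
      ∀ K ε : ℝ, 0 < K → 0 < ε → ∃ A : ℝ, ∀ μ : Measure (Eu d),
        ADRegularWith n C₀ μ → RieszBoundedWith n Cb μ →
        OffCarleson n A μ (FlatAt n μ D K ε) ∧ OffCarleson n A μ (BilaterallyFlatAt n μ K ε) := by
  by_cases hcon : 1 ≤ C₀ ∧ 0 ≤ Cb
  swap
  · refine ⟨1, 1, 1, one_pos, le_rfl, fun μ h1 h2 => absurd ⟨h1.1, h2.1⟩ hcon, fun K ε _ _ =>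
      ⟨0, fun μ h1 h2 => absurd ⟨h1.1, h2.1⟩ hcon⟩⟩
  obtain ⟨hC₀, hCb⟩ := hcon
  have hC₀p : 0 < C₀ := by linarith only [hC₀]
  have hc : 0 < C₀⁻¹ := inv_pos.2 hC₀p
  have hkap := kap_pos n
  obtain ⟨θ, M, hθ, hmain⟩ := main_quant n d hn hnd C₀ Cb hC₀ hCb
  obtain ⟨C, hC, hAR⟩ := ar_quant n d C₀ hC₀
  obtain ⟨C₁, hRB⟩ := rb_quant n hn C Cb hC hCb
  set D : ℝ := max 1 (max (C₀⁻¹ / kap n)⁻¹ (C / kap n)) with hD
  have hD1 : 1 ≤ D := le_max_left _ _
  have hDp : 0 < D := one_pos.trans_le hD1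
  have hD₀ : D⁻¹ ≤ C₀⁻¹ / kap n := by
    rw [inv_le_comm₀ hDp (by positivity)]
    exact (le_max_left _ _).trans (le_max_right _ _)
  have hD₁ : C / kap n ≤ D := (le_max_right _ _).trans (le_max_right _ _)
  refine ⟨θ, M, D, hθ, hD1, ?_, ?_⟩
  · intro μ h1 h2
    refine ⟨hθ, fun x hx r hr hrD => ?_⟩
    obtain ⟨g, hg, hgμ⟩ := hmain μ h1.2 (fun f hf ε hε => (h2.2 f hf ε hε).2) x hx r hr hrD
    exact ⟨g, hg.lipschitzOnWith, hgμ⟩
  · intro K ε hK hε
    obtain ⟨CA, hCA, H⟩ := packing n d 16 hn hnd le_rfl C₀⁻¹ C C₁ hc hC (K + 2)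
      (ε / 16 ^ (n + 1)) (by positivity) (by positivity)
    obtain ⟨CB, hCB, H'⟩ := theoremA_bilateral n d 16 hn hnd le_rfl C₀⁻¹ C C₁ hc hC (K + 2)
      (ε / 16) (by positivity) (by positivity)
    refine ⟨max (C / C₀⁻¹ * 8 ^ n * (4 * CA)) (C / C₀⁻¹ * 8 ^ n * (4 * CB)), fun μ h1 h2 => ?_⟩
    have hkey : 0 < ediam μ.support → AR n C₀⁻¹ C (ediam μ.support) μ ∧ RB n C₁ μ := by
      intro hpos
      have h3 := hAR μ hpos h1.2
      exact ⟨h3, hRB d μ _ _ h3 (fun f hf ε hε => (h2.2 f hf ε hε).2)⟩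
    constructor
    · intro x₀ hx₀ R hR hRD
      obtain ⟨h3, h4⟩ := hkey (lt_of_lt_of_le (ENNReal.ofReal_pos.2 hR) hRD)
      have h5 := dyadic (F := FlatAt n μ D K ε)
        (G := fun z r => NearFlat n μ (C₀⁻¹ / kap n) (C / kap n) z r (K + 2) (ε / 16 ^ (n + 1)))
        h3 hCA (fun l₀ hl₀ Q z hz J => H μ _ h3 h4 l₀ hl₀ Q z hz J) (by
        intro z hz x hx r t hr hrD hxz ht1 ht2 h
        exact flatAt_of_nearFlat hK.le hε.le hD₀ hD₁ hr hxz ht1 ht2 h)
      exact OffCarleson.mono (le_max_left _ _) h5 x₀ hx₀ R hR hRD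
    · intro x₀ hx₀ R hR hRD
      obtain ⟨h3, h4⟩ := hkey (lt_of_lt_of_le (ENNReal.ofReal_pos.2 hR) hRD)
      have h5 := dyadic (F := BilaterallyFlatAt n μ K ε)
        (G := fun z r => ∃ ι : Eu n →ₗᵢ[ℝ] Eu d,
          (∀ y ∈ μ.support, dist y z ≤ (K + 2) * r → ∃ v, dist y (z + ι v) ≤ ε / 16 * r) ∧
          (∀ v, ‖v‖ ≤ (K + 2) * r → ∃ y ∈ μ.support, dist y (z + ι v) ≤ ε / 16 * r))
        h3 hCB (fun l₀ hl₀ Q z hz J => H' μ _ h3 h4 l₀ hl₀ Q z hz J) (by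
        intro z hz x hx r t hr hrD hxz ht1 ht2 h
        exact bilaterallyFlatAt_of hK.le hε.le hr hxz ht1 ht2 h)
      exact OffCarleson.mono (le_max_right _ _) h5 x₀ hx₀ R hR hRD

end Vale.Agent.P120.MS
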